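import Vale.Agent.P237.Petty.Cor.Mid32.Cell1.Main
import Vale.Agent.P237.Petty.Cor.Mid32.Cell2.Main
import Vale.Agent.P237.Petty.Cor.Mid32.Cell3.Main
import Vale.Agent.P237.Petty.Cor.Mid32.Cell4.Main
import Vale.Agent.P237.Petty.Cor.Mid32.Cell5.Main

/-!
# P237: middle orders from 31 to 47, from six over the dimension to one

For `33 ≤ p + 2 ≤ 49` the bounds of the correlation excess hold for every value in
`[6 / (p + 2), 1]`.
-/

namespace Vale.Agent.P237.Petty.Cor

variable {p : ℕ}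

/-- The bounds from `6 / (p + 2)` to `1` in the orders `31 ≤ p ≤ 47`. -/
theorem corCell_mid32 (hp : 31 ≤ p) (hp' : p ≤ 47) : CorCell p (6 / ((p : ℝ) + 2)) 1 := by
  have h : (33 : ℝ) ≤ (p : ℝ) + 2 := by
    have : (31 : ℝ) ≤ p := by exact_mod_cast hp
    linarith
  have cut : ∀ w b : ℝ, w ≤ b * 33 → 0 ≤ b → w / ((p : ℝ) + 2) ≤ b := fun w b h1 h2 => by
    rw [div_le_iff₀ (by linarith)]
    exact h1.trans (mul_le_mul_of_nonneg_left h h2)
  have a := cut 7 (11 / 50) (by norm_num) (by norm_num)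
  have b := cut (19 / 2) (29 / 100) (by norm_num) (by norm_num)
  have c := cut 19 (29 / 50) (by norm_num) (by norm_num)
  have e := cut 25 (19 / 25) (by norm_num) (by norm_num)
  exact ((((Mid32.Cell1.corCell hp hp').append fun ell hl =>
    Mid32.Cell2.corCell hp hp' ell ⟨a.trans hl.1, hl.2⟩).append fun ell hl =>
      Mid32.Cell3.corCell hp hp' ell ⟨b.trans hl.1, hl.2⟩).append fun ell hl =>
        Mid32.Cell4.corCell hp hp' ell ⟨c.trans hl.1, hl.2⟩).append fun ell hl =>
          Mid32.Cell5.corCell hp hp' ell ⟨e.trans hl.1, hl.2⟩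

end Vale.Agent.P237.Petty.Cor
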